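import Vale.Agent.P129BR.RR
import Vale.Agent.P129BZ.Cls

/-!
# Every model has real numbers
-/

namespace Vale.Agent.P129B

universe v

/-- The real numbers of the model are a complete ordered field of the model. -/
instance RR.rf {N : Type v} [ZM N] : RF N (RR N) where
  defAdd := inferInstance
  defMul := inferInstance
  defLT := inferInstance
  lub := RR.lub

theorem exists_RF (N : Type v) [ZM N] : ∃ (R : Type v) (_ : Field R) (_ : LinearOrder R)
    (_ : IsStrictOrderedRing R) (_ : Coded N R), RF N R :=
  ⟨RR N, _, _, inferInstance, _, RR.rf⟩

end Vale.Agent.P129B
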