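import Vale.Agent.P129BZ.Dual
import Vale.Agent.P129BU.Kit
import Vale.Agent.P129BI.FP

/-!
# The tree of Hagler and Johnson: definitions
-/

set_option linter.unusedSectionVars false

namespace Vale.Agent.P129B.Tre

universe v

variable {N : Type v} [ZM N]
  {R : Type*} [Field R] [LinearOrder R] [IsStrictOrderedRing R] [Coded N R] [RF N R]
  {K : Type*} [Field K] [Algebra R K] [Nm K R] [KA R K] [Coded N K] [KF N R K]
  {E : Type*} [AddCommGroup E] [Module K E] [Nm E R] [NA R K E] [Coded N E] [NS N R K E]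

/-- sign patterns -/
def Pat (ε : NN N → R) : Prop := ∀ i, ε i = 1 ∨ ε i = -1

/-- `u` reproduces the pattern `ε` at the first `k` points -/
def Rep (δ : R) (x : NN N → E) (k : NN N) (ε : NN N → R) (u : Dual N K E) : Prop :=
  ∀ i, i < k → nm (u (x i) - algebraMap R K (δ * ε i)) ≤ δ / 16

/-- the first `k` levels of the tree -/
def TQ (g : NN N → Dual N K E) (δ : R) (k : NN N) (x : NN N → E) : Prop :=
  (∀ i, i < k → nm (x i) ≤ 1) ∧
    ∀ ε : NN N → R, Intl N ε → Pat ε → ∀ n₀, ∃ n, n₀ ≤ n ∧ Rep δ x k ε (g n)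

/-- a point at which `u` is large extends the tree -/
def Tr (g : NN N → Dual N K E) (δ p m : R) (k : NN N) (x : NN N → E) (n₀ : NN N)
    (u : Dual N K E) : Prop :=
  ∀ y : E, (∀ j, n₀ ≤ j → nm (g j y) ≤ p) → m < KA.re (u y) → ∀ ε : NN N → R, Intl N ε → Pat ε →
    ∃ n, n₀ ≤ n ∧ Rep δ x k ε (g n) ∧ nm (g n y - algebraMap R K (δ * ε k)) ≤ δ / 16

/-- the size of a functional at a point -/
abbrev vl : Dual N K E → E → R := fun u x => nm (u x)

/-- normalised combinations of a block of `f` -/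
abbrev ik (f : NN N → Dual N K E) : NN N → NN N → Dual N K E → Prop :=
  fun n M u => Stb.IK K f n M (1 : R) u

/-- The statement about signed averages. -/
def TreeSum (f g : NN N → Dual N K E) : Prop :=
  ∀ (δ p m : R) (k : NN N) (x : NN N → E), 0 < δ → 0 ≤ p → |p - δ| ≤ δ / 32 →
    2 * p * (ipow (2 : R) (k + 1) * (p - m)) ≤ (δ / 32) ^ 2 → Intl N x → TQ g δ k x →
    ∀ n₀, ∃ u, (∃ M, n₀ ≤ M ∧ ik f n₀ M u) ∧ Stb.Dm vl g n₀ u ∧ Tr g δ p m k x n₀ u

variable {α : Type*} [Coded N α]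

@[fun_prop] theorem defF_pat {ε : α → NN N → R}
    (h : DefF N (fun q : α × NN N => ε q.1 q.2)) : DefF N (fun a => Pat (ε a)) := by
  unfold Pat; fun_prop

@[fun_prop] theorem defF_rep {δ : α → R} {x : α → NN N → E} {k : α → NN N} {ε : α → NN N → R}
    {u : α → Dual N K E} (hδ : DefF N δ) (hx : DefF N (fun q : α × NN N => x q.1 q.2))
    (hk : DefF N k) (hε : DefF N (fun q : α × NN N => ε q.1 q.2)) (hu : DefF N u) :
    DefF N (fun a => Rep (δ a) (x a) (k a) (ε a) (u a)) := by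
  unfold Rep; fun_prop

@[fun_prop] theorem defF_tq {g : α → NN N → Dual N K E} {δ : α → R} {k : α → NN N}
    {x : α → NN N → E} (hg : DefF N (fun q : α × NN N => g q.1 q.2)) (hδ : DefF N δ)
    (hk : DefF N k) (hx : DefF N (fun q : α × NN N => x q.1 q.2)) :
    DefF N (fun a => TQ (g a) (δ a) (k a) (x a)) := by
  unfold TQ; fun_prop

@[fun_prop] theorem defF_tr {g : α → NN N → Dual N K E} {δ p m : α → R} {k n₀ : α → NN N}
    {x : α → NN N → E} {u : α → Dual N K E} (hg : DefF N (fun q : α × NN N => g q.1 q.2))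
    (hδ : DefF N δ) (hp : DefF N p) (hm : DefF N m) (hk : DefF N k)
    (hx : DefF N (fun q : α × NN N => x q.1 q.2)) (hn : DefF N n₀) (hu : DefF N u) :
    DefF N (fun a => Tr (g a) (δ a) (p a) (m a) (k a) (x a) (n₀ a) (u a)) := by
  unfold Tr; fun_prop

theorem Rep.congr {δ : R} {x y : NN N → E} {k : NN N} {ε ε' : NN N → R} {u : Dual N K E}
    (h : Rep δ x k ε u) (e : ∀ i, i < k → x i = y i) (e' : ∀ i, i < k → ε i = ε' i) :
    Rep δ y k ε' u := fun i hi => e i hi ▸ e' i hi ▸ h i hi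

theorem TQ.congr {g : NN N → Dual N K E} {δ : R} {k : NN N} {x y : NN N → E} (h : TQ g δ k x)
    (e : ∀ i, i < k → x i = y i) : TQ g δ k y := by
  refine ⟨fun i hi => e i hi ▸ h.1 i hi, fun ε hI hε n₀ => ?_⟩
  obtain ⟨n, h1, h2⟩ := h.2 ε hI hε n₀
  exact ⟨n, h1, h2.congr e fun _ _ => rfl⟩

theorem TQ.zero (g : NN N → Dual N K E) (δ : R) (x : NN N → E) : TQ g δ 0 x :=
  ⟨fun i hi => absurd hi (NN.not_lt_zero' i), fun _ _ _ n₀ =>
    ⟨n₀, le_rfl, fun i hi => absurd hi (NN.not_lt_zero' i)⟩⟩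

end Vale.Agent.P129B.Tre
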