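import Vale.Agent.P129BR.Tree
import Vale.Agent.P129B83.TreeSum
import Vale.Agent.P129BM.Spec

/-!
# The tree of Hagler and Johnson: the row
-/

namespace Vale.Agent.P129B

universe v

variable {N : Type v} [ZM N]
  {R : Type*} [Field R] [LinearOrder R] [IsStrictOrderedRing R] [Coded N R] [RF N R]
  {K : Type*} [Field K] [Algebra R K] [Nm K R] [KA R K] [Coded N K] [KF N R K]
  {E : Type*} [AddCommGroup E] [Module K E] [Nm E R] [NA R K E] [Coded N E] [NS N R K E]

theorem tree : TREE N R K E := fun f g _ _ _ hf hg hst hr₀ h0 => by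
  obtain ⟨δ, hδ, x, hx, H⟩ := Tre.exists_tree_of f g hf hg (Tre.tree_sum hg) hst hr₀ h0
  exact ⟨δ, x, hδ, hx, H⟩

end Vale.Agent.P129B
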