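import Vale.Agent.P129BZ.Scal
import Vale.Agent.P129BI.FP

/-!
# Cluster values of bounded internal sequences and a common rotation
-/

namespace Vale.Agent.P129B

universe v

variable {N : Type v} [ZM N] {R : Type*} [Field R] [LinearOrder R] [IsStrictOrderedRing R]
  [Coded N R] [RF N R]

/-- A bounded real sequence stays near one value along an unbounded part of an unbounded set. -/
theorem exists_freq_near {P : NN N → Prop} (hP : DefF N P) {u : NN N → R} (hu : DefF N u) {C : R}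
    (hb : ∀ n, |u n| ≤ C) (hf : ∀ m, ∃ n, m ≤ n ∧ P n) {η : R} (hη : 0 < η) :
    ∃ a : R, ∀ m, ∃ n, m ≤ n ∧ P n ∧ |u n - a| < η := by
  have hS : Intl N {t : R | ∀ m, ∃ n, m ≤ n ∧ P n ∧ t ≤ u n} := intl_setOfT (by fun_prop)
  obtain ⟨a, ha⟩ := RF.lub _ hS ⟨-C, fun m => by
    obtain ⟨n, h1, h2⟩ := hf m
    exact ⟨n, h1, h2, (abs_le.1 (hb n)).1⟩⟩ ⟨C, fun t ht => by
    obtain ⟨n, -, -, h⟩ := ht 0
    exact h.trans (abs_le.1 (hb n)).2⟩
  refine ⟨a, fun m => ?_⟩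
  obtain ⟨t, ht, h1, -⟩ := ha.exists_between (show a - η < a by linarith)
  have h2 : ¬ ∀ m, ∃ n, m ≤ n ∧ P n ∧ a + η / 2 ≤ u n := fun h => by
    have := ha.1 h
    linarith
  obtain ⟨m₀, hm₀⟩ := not_forall.1 h2
  obtain ⟨n, k1, k2, k3⟩ := ht (max m m₀)
  refine ⟨n, (le_max_left _ _).trans k1, k2, abs_lt.2 ⟨by linarith, ?_⟩⟩
  by_contra k4
  exact hm₀ ⟨n, (le_max_right _ _).trans k1, k2, by linarith [not_lt.1 k4]⟩

variable {K : Type*} [Field K] [Algebra R K] [Nm K R] [KA R K] [Coded N K] [KF N R K]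

/-- One rotation makes the real part large unboundedly often. -/
theorem exists_rotate {z : NN N → K} (hz : DefF N z) {C m e : R} (hb : ∀ n, nm (z n) ≤ C)
    (he : 0 < e) (hf : ∀ k, ∃ n, k ≤ n ∧ m < nm (z n)) :
    ∃ c : K, nm c = 1 ∧ ∀ k, ∃ n, k ≤ n ∧ m - e < KA.re (c * z n) := by
  have h4 : 0 < e / 4 := by linarith
  obtain ⟨a, ha⟩ := exists_freq_near (N := N) (P := fun n => m < nm (z n)) (by fun_prop)
    (u := fun n => KA.re (z n)) (by fun_prop) (fun n => (KA.abs_re_le_nm _).trans (hb n)) hf h4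
  obtain ⟨b, hb'⟩ := exists_freq_near (N := N)
    (P := fun n => m < nm (z n) ∧ |KA.re (z n) - a| < e / 4) (by fun_prop)
    (u := fun n => KA.im (z n)) (by fun_prop) (fun n => (KA.abs_im_le_nm _).trans (hb n)) ha h4
  obtain ⟨j, -, ⟨j1, j2⟩, j3⟩ := hb' 0
  refine ⟨KA.rot (z j), KA.nm_rot _, fun k => ?_⟩
  obtain ⟨n, k1, ⟨-, k2⟩, k3⟩ := hb' k
  refine ⟨n, k1, ?_⟩
  have e1 : KA.rot (z j) * z n = algebraMap R K (nm (z j)) - KA.rot (z j) * (z j - z n) := by
    rw [← KA.rot_mul]; ring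
  have e2 : KA.re (KA.rot (z j) * (z j - z n)) < e := by
    refine (KA.re_le_nm _).trans_lt ?_
    rw [KA.nm_mul, KA.nm_rot, one_mul]
    refine (KA.nm_le_abs_add_abs _).trans_lt ?_
    rw [map_sub, map_sub]
    have a1 := abs_sub_le (KA.re (z j)) a (KA.re (z n))
    have a2 := abs_sub_le (KA.im (z j)) b (KA.im (z n))
    rw [abs_sub_comm a] at a1
    rw [abs_sub_comm b] at a2
    linarith
  rw [e1, map_sub, KA.re_ofR]
  linarith

end Vale.Agent.P129B
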