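import Vale.Agent.P129BR.TreeDefs
import Vale.Agent.P129BR.Rot

/-!
# The tree of Hagler and Johnson: the recursion
-/

set_option linter.unusedSectionVars false

namespace Vale.Agent.P129B.Tre

universe v

variable {N : Type v} [ZM N]
  {R : Type*} [Field R] [LinearOrder R] [IsStrictOrderedRing R] [Coded N R] [RF N R]
  {K : Type*} [Field K] [Algebra R K] [Nm K R] [KA R K] [Coded N K] [KF N R K]
  {E : Type*} [AddCommGroup E] [Module K E] [Nm E R] [NA R K E] [Coded N E] [NS N R K E]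

/-- the unit ball -/
abbrev bl : E → Prop := fun x => nm x ≤ 1

theorem ik_le {f : NN N → Dual N K E} [Intl N f] (hf : ∀ i, nm (f i) ≤ 1) {n M : NN N}
    {u : Dual N K E} (h : ik f n M u) {x : E} (hx : nm x ≤ 1) : nm (u x) ≤ 1 :=
  (u.le_nm_of_le_one hx).trans (Stb.IK.nm_le h hf)

theorem ad_oscLe {f g : NN N → Dual N K E} [Intl N f] (hf : ∀ i, nm (f i) ≤ 1)
    (hg : Stb.Ad (ik f) g) : Stb.OscLe vl bl g 1 := by
  intro x hx
  obtain ⟨n₀, hn₀⟩ := hg 0
  refine ⟨n₀, fun n hn => ?_⟩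
  obtain ⟨M, -, hM⟩ := hn₀ n hn
  exact ik_le hf hM hx

/-- The new level of the tree. -/
theorem tree_next {g h : NN N → Dual N K E} [Intl N h] {δ p m m' : R} (hm : m < m') {k : NN N}
    {x : NN N → E} (hQ : TQ g δ k x) (hh : ∀ n w, nm w ≤ 1 → nm (h n w) ≤ 1)
    (hT : ∀ n, Tr g δ p m k x n (h n)) (hp : Stb.OscLe vl bl g p)
    (hm' : ¬ Stb.OscLe vl bl h m') :
    ∃ y, TQ g δ (k + 1) (Function.update x k y) := by
  classical
  obtain ⟨w, hw⟩ := not_forall.1 hm'
  obtain ⟨hw1, hw2⟩ := Classical.not_imp.1 hw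
  obtain ⟨c, hc1, hc2⟩ := exists_rotate (N := N) (z := fun n => h n w) (by fun_prop)
    (m := m') (e := m' - m) (fun n => hh n w hw1) (by linarith) fun n₀ => by
      by_contra hc
      exact hw2 ⟨n₀, fun n hn => not_lt.1 fun k => hc ⟨n, hn, k⟩⟩
  have hy1 : nm (c • w) ≤ 1 := by
    rw [nm_smul, hc1, one_mul]; exact hw1
  refine ⟨c • w, fun i hi => ?_, fun ε hI hε n₀ => ?_⟩
  · rcases NN.lt_add_one_cases hi with h | rfl
    · rw [Function.update_of_ne h.ne]; exact hQ.1 i h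
    · rw [Function.update_self]; exact hy1
  · obtain ⟨n₁, hn₁⟩ := hp _ hy1
    obtain ⟨n, hn1, hn2⟩ := hc2 (max n₀ n₁)
    have h3 : m < KA.re (h n (c • w)) := by
      rw [Dual.smul_arg]; linarith
    obtain ⟨n', h4, h5, h6⟩ := hT n _
      (fun j hj => hn₁ j (((le_max_right _ _).trans hn1).trans hj)) h3 ε hI hε
    refine ⟨n', ((le_max_left _ _).trans hn1).trans h4, fun i hi => ?_⟩
    rcases NN.lt_add_one_cases hi with h | rfl
    · rw [Function.update_of_ne h.ne]; exact h5 i h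
    · rw [Function.update_self]; exact h6

/-- The choice of the parameters. -/
theorem tree_params {g : NN N → Dual N K E} [Intl N g] (h1 : Stb.OscLe vl bl g 1) {r₀ : R}
    (hr₀ : 0 < r₀) (h0 : ¬ Stb.OscLe vl bl g r₀) :
    ∃ δ : R, 0 < δ ∧ ∀ c : R, 0 < c → ∃ p m m' s : R, 0 ≤ p ∧
      |p - δ| ≤ δ / 32 ∧ 2 * p * (c * (p - m)) ≤ (δ / 32) ^ 2 ∧ m < m' ∧ m' < s ∧
      Stb.OscLe vl bl g p ∧ ¬ Stb.OscLe vl bl g s := by
  have hS : Intl N {r : R | Stb.OscLe vl bl g r} :=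
    intl_setOfT (Stb.defF_oscLe (by fun_prop) (by fun_prop) (DefF.const g) DefF.id)
  obtain ⟨d, hd⟩ := RF.glb _ hS ⟨1, h1⟩ ⟨r₀, fun r hr => by
    by_contra hc
    exact h0 (Stb.OscLe.mono hr (not_le.1 hc).le)⟩
  have hd0 : 0 < d := hr₀.trans_le (hd.2 fun r hr => by
    by_contra hc
    exact h0 (Stb.OscLe.mono hr (not_le.1 hc).le))
  have hup : ∀ p, d < p → Stb.OscLe vl bl g p := fun p hp => by
    obtain ⟨r, hr, -, hrp⟩ := hd.exists_between hp
    exact Stb.OscLe.mono hr hrp.le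
  have hlo : ∀ s, s < d → ¬ Stb.OscLe vl bl g s := fun s hs h => absurd (hd.1 h) (not_le.2 hs)
  refine ⟨d, hd0, fun c hc => ?_⟩
  obtain ⟨e, he0, he1, he2⟩ : ∃ e : R, 0 < e ∧ e ≤ d / 32 ∧ e * (8 * d * c) ≤ (d / 32) ^ 2 := by
    refine ⟨min (d / 32) ((d / 32) ^ 2 / (8 * d * c)), lt_min (by linarith) (by positivity),
      min_le_left _ _, ?_⟩
    rw [← le_div_iff₀ (by positivity)]
    exact min_le_right _ _
  refine ⟨d + e, d - e, d - e / 2, d - e / 4, by linarith, ?_, ?_, by linarith, by linarith,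
    hup _ (by linarith), hlo _ (by linarith)⟩
  · rw [add_sub_cancel_left, abs_of_pos he0]; exact he1
  · refine le_trans ?_ he2
    have h3 : 0 < e * c := mul_pos he0 hc
    calc 2 * (d + e) * (c * (d + e - (d - e))) = 4 * (d + e) * (e * c) := by ring
      _ ≤ 8 * d * (e * c) := mul_le_mul_of_nonneg_right (by linarith) h3.le
      _ = e * (8 * d * c) := by ring

/-- **The tree**, from the statement about signed averages. -/
theorem exists_tree_of (f g : NN N → Dual N K E) [Intl N f] [Intl N g] (hf : ∀ i, nm (f i) ≤ 1)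
    (hg : Stb.Ad (ik f) g) (hsum : TreeSum f g)
    (hst : ∀ h, Intl N h → Stb.Ad (ik f) h → Stb.Do vl g h → Stb.LeAdd vl bl g h 0)
    {r₀ : R} (hr₀ : 0 < r₀) (h0 : ¬ Stb.OscLe vl bl g r₀) :
    ∃ δ : R, 0 < δ ∧ ∃ x : NN N → E, Intl N x ∧ ∀ k, TQ g δ k x := by
  classical
  obtain ⟨δ, hδ, hpar⟩ := tree_params (ad_oscLe hf hg) hr₀ h0
  have key : ∀ (k : NN N) (x : NN N → E), (∀ i, i < k → TQ g δ (i + 1) x) → TQ g δ k x := by
    intro k x h
    rcases NN.zero_or_add_one k with rfl | ⟨j, rfl⟩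
    · exact TQ.zero g δ x
    · exact h j (NN.lt_add_one j)
  obtain ⟨x, hx, H⟩ := exists_intl_cov (N := N) (0 : E) (R := fun k x => TQ g δ (k + 1) x)
    (by fun_prop) (fun k s t e h => h.congr fun i hi => e i (NN.lt_add_one_iff.1 hi))
    fun k x hx h => by
      have hQ := key k x h
      obtain ⟨p, m, m', s, k1, k2, k3, k4, k5, k6, k7⟩ :=
        hpar (ipow (2 : R) (k + 1)) (ipow_pos two_pos _)
      obtain ⟨u, hu, hu'⟩ := exists_intl_choiceT (N := N)
        (R := fun (n : NN N) (u : Dual N K E) => (∃ M, n ≤ M ∧ ik f n M u) ∧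
          Stb.Dm vl g n u ∧ Tr g δ p m k x n u)
        (DefF.and (DefF.exT (DefF.and (by fun_prop) (Stb.defF_ik (DefF.const f) (by fun_prop)
          (by fun_prop) (by fun_prop) (by fun_prop))))
          (DefF.and (Stb.defF_dm (by fun_prop) (DefF.const g) (by fun_prop) (by fun_prop))
            (by fun_prop)))
        (hsum δ p m k x hδ k1 k2 k3 hx hQ)
      have h2 := hst u hu
        (Stb.ad_of_forall (IK := ik f) (fun _ _ _ _ a b => Stb.IK.mono b a le_rfl)
          fun n => (hu' n).1)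
        (Stb.do_of_forall 0 fun n _ => (hu' n).2.1)
      obtain ⟨y, hy⟩ := tree_next k4 hQ (fun n w hw => by
          obtain ⟨M, -, hM⟩ := (hu' n).1
          exact ik_le hf hM hw) (fun n => (hu' n).2.2) k6
        fun h3 => k7 (h2 m' s (by linarith) h3)
      exact ⟨Function.update x k y, inferInstance,
        fun i hi => Function.update_of_ne hi.ne _ _, hy⟩
  exact ⟨δ, hδ, x, hx, fun k => key k x fun i _ => H i⟩

end Vale.Agent.P129B.Tre
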