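import Mathlib.Tactic
import Mathlib.RingTheory.Localization.FractionRing
import Mathlib.RingTheory.Ideal.Quotient.Basic
import Mathlib.Algebra.Ring.MinimalAxioms

/-!
# The ordered field of fractions of an ordered semiring of natural numbers
-/

set_option linter.all false

namespace Vale.Agent.P129BR

universe v

/-- The order defined by a positive cone in a field. -/
@[reducible] noncomputable def coneOrder {F : Type v} [Field F] (P : F → Prop)
    (add : ∀ a b, P a → P b → P (a + b)) (tot : ∀ a, P a ∨ P (-a))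
    (anti : ∀ a, P a → P (-a) → a = 0) : LinearOrder F where
  le a b := P (b - a)
  le_refl a := by
    have := tot 0
    rw [neg_zero, or_self] at this
    show P (a - a)
    rwa [sub_self]
  le_trans a b c h k := by
    have := add _ _ h k
    show P (c - a)
    rwa [show b - a + (c - b) = c - a by ring] at this
  le_antisymm a b h k := by
    have := anti _ h (by rw [neg_sub]; exact k)
    exact (sub_eq_zero.1 this).symm
  le_total a b := by
    have := tot (b - a)
    rwa [neg_sub] at this
  toDecidableLE := Classical.decRel _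

theorem coneOrder_ring {F : Type v} [Field F] (P : F → Prop)
    (add : ∀ a b, P a → P b → P (a + b)) (tot : ∀ a, P a ∨ P (-a))
    (anti : ∀ a, P a → P (-a) → a = 0) (mul : ∀ a b, P a → P b → P (a * b)) :
    letI := coneOrder P add tot anti
    IsStrictOrderedRing F := by
  letI := coneOrder P add tot anti
  have h0 : ∀ a : F, 0 ≤ a ↔ P a := fun a => by
    show P (a - 0) ↔ P a
    rw [sub_zero]
  have h1 : ∀ a b : F, a ≤ b → ∀ c, a + c ≤ b + c := fun a b h c => by
    show P (b + c - (a + c))
    rw [add_sub_add_right_eq_sub]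
    exact h
  haveI : IsOrderedAddMonoid F := { add_le_add_left := h1 }
  haveI : ZeroLEOneClass F := ⟨(h0 1).2 (by
    rcases tot 1 with h | h
    · exact h
    · have := mul _ _ h h
      rwa [neg_mul_neg, mul_one] at this)⟩
  haveI : IsOrderedRing F := IsOrderedRing.of_mul_nonneg fun a b ha hb =>
    (h0 _).2 (mul a b ((h0 a).1 ha) ((h0 b).1 hb))
  infer_instance

variable (S : Type v) [CommSemiring S] [LinearOrder S] [IsStrictOrderedRing S]
  [CanonicallyOrderedAdd S]

/-- differences -/
def zs : Setoid (S × S) where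
  r p q := p.1 + q.2 = q.1 + p.2
  iseqv := ⟨fun _ => rfl, fun h => h.symm, fun {p q r} h k => by
    have : p.1 + r.2 + (q.1 + q.2) = r.1 + p.2 + (q.1 + q.2) := by linear_combination h + k
    exact add_right_cancel this⟩

/-- the integers over `S` -/
def ZZ : Type v := Quotient (zs S)

namespace ZZ

variable {S}

/-- the difference `a - b` -/
def mk (a b : S) : ZZ S := Quotient.mk (zs S) (a, b)

theorem mk_eq {a b c d : S} : mk a b = mk c d ↔ a + d = c + b := Quotient.eq (r := zs S)

theorem ind {P : ZZ S → Prop} (h : ∀ a b, P (mk a b)) (z : ZZ S) : P z :=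
  Quotient.inductionOn z fun p => h p.1 p.2

instance : Zero (ZZ S) := ⟨mk 0 0⟩
instance : One (ZZ S) := ⟨mk 1 0⟩
instance : Add (ZZ S) := ⟨Quotient.map₂ (sa := zs S) (sb := zs S) (γ := S × S)
  (fun p q => (p.1 + q.1, p.2 + q.2)) fun p p' h q q' k => by
    have h : p.1 + p'.2 = p'.1 + p.2 := h
    have k : q.1 + q'.2 = q'.1 + q.2 := k
    show p.1 + q.1 + (p'.2 + q'.2) = p'.1 + q'.1 + (p.2 + q.2)
    linear_combination h + k⟩
instance : Neg (ZZ S) := ⟨Quotient.map (sa := zs S) (sb := zs S) (fun p => (p.2, p.1))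
  fun p p' h => by
    have h : p.1 + p'.2 = p'.1 + p.2 := h
    show p.2 + p'.1 = p'.2 + p.1
    linear_combination h.symm⟩
instance : Mul (ZZ S) := ⟨Quotient.map₂ (sa := zs S) (sb := zs S) (γ := S × S)
  (fun p q => (p.1 * q.1 + p.2 * q.2, p.1 * q.2 + p.2 * q.1)) fun p p' h q q' k => by
    have h : p.1 + p'.2 = p'.1 + p.2 := h
    have k : q.1 + q'.2 = q'.1 + q.2 := k
    show p.1 * q.1 + p.2 * q.2 + (p'.1 * q'.2 + p'.2 * q'.1) =
      p'.1 * q'.1 + p'.2 * q'.2 + (p.1 * q.2 + p.2 * q.1)
    have : p.1 * q.1 + p.2 * q.2 + (p'.1 * q'.2 + p'.2 * q'.1) + (p'.1 * q.1 + p'.2 * q.2 +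
        p'.1 * q.2 + p'.2 * q.1) = p'.1 * q'.1 + p'.2 * q'.2 + (p.1 * q.2 + p.2 * q.1) +
        (p'.1 * q.1 + p'.2 * q.2 + p'.1 * q.2 + p'.2 * q.1) := by
      linear_combination q.1 * h + q.2 * h.symm + p'.1 * k + p'.2 * k.symm
    exact add_right_cancel this⟩

theorem zero_def : (0 : ZZ S) = mk 0 0 := rfl
theorem one_def : (1 : ZZ S) = mk 1 0 := rfl
theorem add_def (a b c d : S) : mk a b + mk c d = mk (a + c) (b + d) := rfl
theorem neg_def (a b : S) : -mk a b = mk b a := rfl
theorem mul_def (a b c d : S) : mk a b * mk c d = mk (a * c + b * d) (a * d + b * c) := rfl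

instance : CommRing (ZZ S) := CommRing.ofMinimalAxioms
  (fun x y z => by
    induction x using ind; induction y using ind; induction z using ind
    simp only [add_def, mk_eq]; ring)
  (fun x => by
    induction x using ind
    simp only [zero_def, add_def, mk_eq]; ring)
  (fun x => by
    induction x using ind
    simp only [zero_def, add_def, neg_def, mk_eq]; ring)
  (fun x y z => by
    induction x using ind; induction y using ind; induction z using ind
    simp only [mul_def, mk_eq]; ring)
  (fun x y => by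
    induction x using ind; induction y using ind
    simp only [mul_def, mk_eq]; ring)
  (fun x => by
    induction x using ind
    simp only [one_def, mul_def, mk_eq]; ring)
  (fun x y z => by
    induction x using ind; induction y using ind; induction z using ind
    simp only [add_def, mul_def, mk_eq]; ring)

/-- the embedding -/
def of : S →+* ZZ S where
  toFun a := mk a 0
  map_one' := rfl
  map_zero' := rfl
  map_mul' a b := by rw [mul_def, mk_eq]; ring
  map_add' a b := by rw [add_def, mk_eq]; ring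

theorem of_inj : Function.Injective (of : S → ZZ S) := fun a b h => by
  have : a + 0 = b + 0 := mk_eq.1 h
  simpa using this

theorem of_or (z : ZZ S) : ∃ a, z = of a ∨ z = -of a := by
  induction z using ind with
  | h a b =>
    rcases le_total a b with h | h
    · obtain ⟨c, rfl⟩ := exists_add_of_le h
      exact ⟨c, Or.inr (mk_eq.2 (by ring))⟩
    · obtain ⟨c, rfl⟩ := exists_add_of_le h
      exact ⟨c, Or.inl (mk_eq.2 (by ring))⟩

instance : Nontrivial (ZZ S) := of_inj.nontrivial

instance : NoZeroDivisors (ZZ S) := ⟨fun {x y} h => by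
  obtain ⟨a, ha⟩ := of_or x
  obtain ⟨b, hb⟩ := of_or y
  have h1 : (of (a * b) : ZZ S) = of 0 := by
    rw [map_mul, map_zero]
    rcases ha with rfl | rfl <;> rcases hb with rfl | rfl <;> simpa using h
  rcases mul_eq_zero.1 (of_inj h1) with rfl | rfl
  · left; simpa using ha
  · right; simpa using hb⟩

instance : IsDomain (ZZ S) := NoZeroDivisors.to_isDomain _

end ZZ

/-- the rational numbers over `S` -/
def QF : Type v := FractionRing (ZZ S)

noncomputable instance : Field (QF S) := inferInstanceAs (Field (FractionRing (ZZ S)))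

variable {S}

/-- the embedding -/
noncomputable def zof : ZZ S →+* QF S := algebraMap (ZZ S) (FractionRing (ZZ S))

theorem z_surj (x : QF S) : ∃ y z : ZZ S, x = zof y / zof z := by
  obtain ⟨y, z, -, h⟩ := IsFractionRing.div_surjective (A := ZZ S) (K := FractionRing (ZZ S)) x
  exact ⟨y, z, h.symm⟩

/-- the embedding -/
noncomputable def qof : S →+* QF S := zof.comp ZZ.of

theorem qof_inj : Function.Injective (qof : S → QF S) :=
  (IsFractionRing.injective (ZZ S) (FractionRing (ZZ S))).comp ZZ.of_inj

theorem qof_ne {b : S} (hb : b ≠ 0) : qof b ≠ 0 := fun h => hb (qof_inj (h.trans (map_zero _).symm))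

theorem q_or (x : QF S) : ∃ a b : S, x = qof a / qof b ∨ -x = qof a / qof b := by
  obtain ⟨y, z, h⟩ := z_surj x
  obtain ⟨a, ha⟩ := ZZ.of_or y
  obtain ⟨b, hb⟩ := ZZ.of_or z
  refine ⟨a, b, ?_⟩
  have e : ∀ c : S, qof c = zof (ZZ.of c) := fun _ => rfl
  rw [e, e, h]
  rcases ha with rfl | rfl <;> rcases hb with rfl | rfl
  · exact Or.inl rfl
  · right; rw [map_neg, div_neg, neg_neg]
  · right; rw [map_neg, neg_div, neg_neg]
  · left; rw [map_neg, map_neg, neg_div_neg_eq]

/-- the nonnegative rational numbers -/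
def QP (x : QF S) : Prop := ∃ a b : S, x = qof a / qof b

theorem qp_add (x y : QF S) (hx : QP x) (hy : QP y) : QP (x + y) := by
  obtain ⟨a, b, rfl⟩ := hx
  obtain ⟨c, d, rfl⟩ := hy
  rcases eq_or_ne b 0 with rfl | hb
  · exact ⟨c, d, by simp⟩
  rcases eq_or_ne d 0 with rfl | hd
  · exact ⟨a, b, by simp⟩
  refine ⟨a * d + b * c, b * d, ?_⟩
  rw [div_add_div _ _ (qof_ne hb) (qof_ne hd), map_add, map_mul, map_mul, map_mul]

theorem qp_mul (x y : QF S) (hx : QP x) (hy : QP y) : QP (x * y) := by
  obtain ⟨a, b, rfl⟩ := hx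
  obtain ⟨c, d, rfl⟩ := hy
  exact ⟨a * c, b * d, by rw [div_mul_div_comm, map_mul, map_mul]⟩

theorem qp_tot (x : QF S) : QP x ∨ QP (-x) := by
  obtain ⟨a, b, h | h⟩ := q_or x
  exacts [Or.inl ⟨a, b, h⟩, Or.inr ⟨a, b, h⟩]

theorem qp_anti (x : QF S) (hx : QP x) (hy : QP (-x)) : x = 0 := by
  obtain ⟨a, b, rfl⟩ := hx
  obtain ⟨c, d, h⟩ := hy
  rcases eq_or_ne b 0 with rfl | hb
  · simp
  rcases eq_or_ne d 0 with rfl | hd
  · simpa using h
  have h1 : qof a / qof b + qof c / qof d = 0 := by rw [← h, add_neg_cancel]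
  rw [div_add_div _ _ (qof_ne hb) (qof_ne hd), div_eq_zero_iff,
    or_iff_left (mul_ne_zero (qof_ne hb) (qof_ne hd)), ← map_mul, ← map_mul, ← map_add] at h1
  have h2 : a * d + b * c = 0 := qof_inj (h1.trans (map_zero _).symm)
  have h3 : a * d = 0 := (add_eq_zero.1 h2).1
  rw [(mul_eq_zero.1 h3).resolve_right hd, map_zero, zero_div]

noncomputable instance : LinearOrder (QF S) := coneOrder QP qp_add qp_tot qp_anti

instance : IsStrictOrderedRing (QF S) := coneOrder_ring QP qp_add qp_tot qp_anti qp_mul

theorem qof_nonneg (a : S) : 0 ≤ qof a := by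
  show QP (qof a - 0)
  exact ⟨a, 1, by simp⟩

theorem qof_mono : StrictMono (qof : S → QF S) := by
  refine Monotone.strictMono_of_injective (fun a b h => ?_) qof_inj
  obtain ⟨c, rfl⟩ := exists_add_of_le h
  rw [map_add]
  exact le_add_of_nonneg_right (qof_nonneg c)

end Vale.Agent.P129BR
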