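import Vale.Agent.P129BR.Alg
import Mathlib.Order.Filter.AtTopBot.Prod
import Mathlib.Order.Filter.AtTopBot.Basic

/-!
# Cauchy sequences from a class of sequences, modulo null sequences
-/

set_option linter.all false

namespace Vale.Agent.P129BR

open Filter

universe v

variable {S : Type v} [LinearOrder S] [Nonempty S] {Q : Type v} [Field Q] [LinearOrder Q]
  [IsStrictOrderedRing Q] {ι : Type v} {l : Filter ι}

/-- tends to zero -/
def NulF (l : Filter ι) (f : ι → Q) : Prop := ∀ ε : Q, 0 < ε → ∀ᶠ i in l, |f i| ≤ ε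

/-- eventually bounded -/
def BdF (l : Filter ι) (f : ι → Q) : Prop := ∃ C : Q, 0 < C ∧ ∀ᶠ i in l, |f i| ≤ C

theorem NulF.add {f g : ι → Q} (hf : NulF l f) (hg : NulF l g) : NulF l (fun i => f i + g i) := by
  intro ε hε
  filter_upwards [hf (ε / 2) (half_pos hε), hg (ε / 2) (half_pos hε)] with i h k
  exact (abs_add_le _ _).trans (by linarith)

theorem NulF.mono {f g : ι → Q} (hf : NulF l f) (h : ∀ᶠ i in l, |g i| ≤ |f i|) : NulF l g := by
  intro ε hε
  filter_upwards [hf ε hε, h] with i h k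
  exact k.trans h

theorem BdF.mul {f g : ι → Q} (hf : BdF l f) (hg : NulF l g) : NulF l (fun i => f i * g i) := by
  obtain ⟨C, hC, h⟩ := hf
  intro ε hε
  filter_upwards [h, hg (ε / C) (div_pos hε hC)] with i h k
  rw [abs_mul]
  calc |f i| * |g i| ≤ C * (ε / C) := mul_le_mul h k (abs_nonneg _) hC.le
    _ = ε := mul_div_cancel₀ _ hC.ne'

theorem nulF_zero : NulF l (fun _ => (0 : Q)) := fun ε hε =>
  Eventually.of_forall fun _ => by rw [abs_zero]; exact hε.le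

/-- null sequences -/
def Nul (s : S → Q) : Prop := ∀ ε : Q, 0 < ε → ∃ k, ∀ n, k ≤ n → |s n| ≤ ε

/-- Cauchy sequences -/
def Cau (s : S → Q) : Prop :=
  ∀ ε : Q, 0 < ε → ∃ k, ∀ m, k ≤ m → ∀ n, k ≤ n → |s m - s n| ≤ ε

theorem nul_iff {s : S → Q} : Nul s ↔ NulF atTop s :=
  forall₂_congr fun _ _ => eventually_atTop.symm

theorem cau_iff {s : S → Q} :
    Cau s ↔ NulF (atTop ×ˢ atTop) (fun p : S × S => s p.1 - s p.2) :=
  forall₂_congr fun ε _ => by
    rw [prod_atTop_atTop_eq, eventually_atTop]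
    constructor
    · rintro ⟨k, hk⟩
      exact ⟨(k, k), fun p hp => hk _ hp.1 _ hp.2⟩
    · rintro ⟨k, hk⟩
      exact ⟨max k.1 k.2, fun m hm n hn =>
        hk (m, n) ⟨(le_max_left _ _).trans hm, (le_max_right _ _).trans hn⟩⟩

theorem Cau.bd {s : S → Q} (h : Cau s) : BdF atTop s := by
  obtain ⟨k, hk⟩ := h 1 one_pos
  refine ⟨|s k| + 1, by positivity, eventually_atTop.2 ⟨k, fun n hn => ?_⟩⟩
  have := abs_sub_abs_le_abs_sub (s n) (s k)
  have := hk n hn k le_rfl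
  linarith

theorem BdF.fst {s : S → Q} (h : BdF atTop s) :
    BdF (atTop ×ˢ atTop) (fun p : S × S => s p.1) :=
  h.imp fun _ h => ⟨h.1, tendsto_fst.eventually h.2⟩

theorem BdF.snd {s : S → Q} (h : BdF atTop s) :
    BdF (atTop ×ˢ atTop) (fun p : S × S => s p.2) :=
  h.imp fun _ h => ⟨h.1, tendsto_snd.eventually h.2⟩

theorem cau_const (q : Q) : Cau (fun _ : S => q) :=
  cau_iff.2 (nulF_zero.mono (Eventually.of_forall fun p => by simp))

theorem Cau.add {s t : S → Q} (hs : Cau s) (ht : Cau t) : Cau (s + t) :=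
  cau_iff.2 (((cau_iff.1 hs).add (cau_iff.1 ht)).mono (Eventually.of_forall fun p =>
    le_of_eq (congrArg _ (by simp only [Pi.add_apply]; ring))))

theorem Cau.neg {s : S → Q} (hs : Cau s) : Cau (-s) :=
  cau_iff.2 ((cau_iff.1 hs).mono (Eventually.of_forall fun p => by
    simp only [Pi.neg_apply]
    rw [neg_sub_neg, abs_sub_comm]))

theorem Cau.mul {s t : S → Q} (hs : Cau s) (ht : Cau t) : Cau (s * t) :=
  cau_iff.2 (((hs.bd.fst.mul (cau_iff.1 ht)).add (ht.bd.snd.mul (cau_iff.1 hs))).mono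
    (Eventually.of_forall fun p => le_of_eq (congrArg _ (by simp only [Pi.mul_apply]; ring))))

theorem Cau.pos {s : S → Q} (hs : Cau s) : Cau (fun n => max (s n) 0) :=
  cau_iff.2 ((cau_iff.1 hs).mono (Eventually.of_forall fun p => abs_max_sub_max_le_abs _ _ _))

theorem Cau.away {s : S → Q} (hs : Cau s) (h : ¬ Nul s) :
    ∃ ε : Q, 0 < ε ∧ ∀ᶠ n in atTop, ε ≤ |s n| := by
  unfold Nul at h
  push Not at h
  obtain ⟨ε, hε, h⟩ := h
  obtain ⟨k, hk⟩ := hs (ε / 2) (half_pos hε)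
  obtain ⟨m, hm, h1⟩ := h k
  refine ⟨ε / 2, half_pos hε, eventually_atTop.2 ⟨k, fun n hn => ?_⟩⟩
  have := abs_sub_abs_le_abs_sub (s m) (s n)
  have := hk m hm n hn
  linarith

theorem Cau.inv {s : S → Q} (hs : Cau s) (h : ¬ Nul s) : Cau (fun n => (s n)⁻¹) := by
  obtain ⟨ε, hε, h1⟩ := hs.away h
  have h2 : BdF atTop (fun n => (s n)⁻¹) := ⟨ε⁻¹, inv_pos.2 hε, h1.mono fun n hn => by
    rw [abs_inv]; exact inv_anti₀ hε hn⟩
  refine cau_iff.2 ((h2.fst.mul (h2.snd.mul (cau_iff.1 hs))).mono ?_)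
  filter_upwards [tendsto_fst.eventually h1, tendsto_snd.eventually h1] with p k1 k2
  have e1 : s p.1 ≠ 0 := abs_pos.1 (hε.trans_le k1)
  have e2 : s p.2 ≠ 0 := abs_pos.1 (hε.trans_le k2)
  rw [← abs_neg]
  refine le_of_eq (congrArg _ ?_)
  field_simp
  ring

variable (S Q) in
/-- a class of sequences -/
structure SeqC where
  A : Subring (S → Q)
  const : ∀ q : Q, (fun _ => q) ∈ A
  inv : ∀ s ∈ A, (fun n => (s n)⁻¹) ∈ A
  pos : ∀ s ∈ A, (fun n => max (s n) 0) ∈ A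

namespace SeqC

variable (C : SeqC S Q)

/-- the Cauchy sequences of the class -/
def cau : Subring (S → Q) where
  carrier := {s | s ∈ C.A ∧ Cau s}
  mul_mem' h k := ⟨C.A.mul_mem h.1 k.1, h.2.mul k.2⟩
  one_mem' := ⟨C.A.one_mem, cau_const 1⟩
  add_mem' h k := ⟨C.A.add_mem h.1 k.1, h.2.add k.2⟩
  zero_mem' := ⟨C.A.zero_mem, cau_const 0⟩
  neg_mem' h := ⟨C.A.neg_mem h.1, h.2.neg⟩

/-- the null sequences -/
def nul : Ideal C.cau where
  carrier := {s | Nul s.1}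
  add_mem' h k := nul_iff.2 ((nul_iff.1 h).add (nul_iff.1 k))
  zero_mem' := nul_iff.2 nulF_zero
  smul_mem' c _ h := nul_iff.2 (c.2.2.bd.mul (nul_iff.1 h))

/-- the completion -/
def R : Type v := C.cau ⧸ C.nul

noncomputable instance : CommRing C.R := inferInstanceAs (CommRing (C.cau ⧸ C.nul))

/-- the class of a Cauchy sequence -/
noncomputable def cl : C.cau →+* C.R := Ideal.Quotient.mk C.nul

theorem mk_surj (x : C.R) : ∃ s, C.cl s = x := Ideal.Quotient.mk_surjective x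

theorem mk_eq_zero {s : C.cau} : C.cl s = 0 ↔ Nul s.1 := Ideal.Quotient.eq_zero_iff_mem

theorem mk_eq {s t : C.cau} : C.cl s = C.cl t ↔ Nul (s.1 - t.1) := by
  rw [← sub_eq_zero, ← map_sub, mk_eq_zero]; rfl

theorem mk_eq_of_ev {s t : C.cau} (h : ∀ᶠ n in atTop, s.1 n = t.1 n) : C.cl s = C.cl t :=
  C.mk_eq.2 (nul_iff.2 (nulF_zero.mono (h.mono fun n hn => by simp [hn])))

theorem isField : IsField C.R where
  exists_pair_ne := ⟨1, 0, fun h => by
    obtain ⟨k, hk⟩ := C.mk_eq_zero.1 ((map_one C.cl).trans h) (1 / 2) one_half_pos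
    have : |(1 : Q)| ≤ 1 / 2 := hk k le_rfl
    norm_num at this⟩
  mul_comm := mul_comm
  mul_inv_cancel {x} hx := by
    obtain ⟨s, rfl⟩ := C.mk_surj x
    have h : ¬ Nul s.1 := fun h => hx (C.mk_eq_zero.2 h)
    refine ⟨C.cl ⟨fun n => (s.1 n)⁻¹, C.inv _ s.2.1, s.2.2.inv h⟩, ?_⟩
    rw [← map_mul, ← map_one C.cl]
    obtain ⟨ε, hε, h1⟩ := s.2.2.away h
    exact C.mk_eq_of_ev (h1.mono fun n hn => mul_inv_cancel₀ (abs_pos.1 (hε.trans_le hn)))

noncomputable instance : Field C.R := C.isField.toField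

/-- the positive part -/
def pp (s : C.cau) : C.cau := ⟨fun n => max (s.1 n) 0, C.pos _ s.2.1, s.2.2.pos⟩

/-- the nonnegative elements -/
def P (x : C.R) : Prop := ∃ s : C.cau, C.cl s = x ∧ ∀ n, 0 ≤ s.1 n

theorem p_add (x y : C.R) (hx : C.P x) (hy : C.P y) : C.P (x + y) := by
  obtain ⟨s, rfl, hs⟩ := hx
  obtain ⟨t, rfl, ht⟩ := hy
  exact ⟨s + t, map_add _ _ _, fun n => add_nonneg (hs n) (ht n)⟩

theorem p_mul (x y : C.R) (hx : C.P x) (hy : C.P y) : C.P (x * y) := by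
  obtain ⟨s, rfl, hs⟩ := hx
  obtain ⟨t, rfl, ht⟩ := hy
  exact ⟨s * t, map_mul _ _ _, fun n => mul_nonneg (hs n) (ht n)⟩

theorem p_tot (x : C.R) : C.P x ∨ C.P (-x) := by
  obtain ⟨s, rfl⟩ := C.mk_surj x
  have h1 : C.pp s * C.pp (-s) = 0 := Subtype.ext (funext fun n => by
    show max (s.1 n) 0 * max (-s.1 n) 0 = 0
    rcases le_total (s.1 n) 0 with h | h
    · rw [max_eq_right h, zero_mul]
    · rw [max_eq_right (neg_nonpos.2 h), mul_zero])
  have h2 : s = C.pp s - C.pp (-s) := Subtype.ext (funext fun n => by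
    show s.1 n = max (s.1 n) 0 - max (-s.1 n) 0
    exact (max_zero_sub_max_neg_zero_eq_self _).symm)
  have h3 : C.cl s = C.cl (C.pp s) - C.cl (C.pp (-s)) := by rw [← map_sub, ← h2]
  have h4 : C.cl (C.pp s) * C.cl (C.pp (-s)) = 0 := by rw [← map_mul, h1, map_zero]
  rcases mul_eq_zero.1 h4 with h | h
  · exact Or.inr ⟨C.pp (-s), by rw [h3, h, zero_sub, neg_neg], fun n => le_max_right _ _⟩
  · exact Or.inl ⟨C.pp s, by rw [h3, h, sub_zero], fun n => le_max_right _ _⟩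

theorem p_anti (x : C.R) (hx : C.P x) (hy : C.P (-x)) : x = 0 := by
  obtain ⟨s, rfl, hs⟩ := hx
  obtain ⟨t, h, ht⟩ := hy
  have h1 : Nul (s + t).1 := C.mk_eq_zero.1 (by rw [map_add, h, add_neg_cancel])
  refine C.mk_eq_zero.2 (nul_iff.2 ((nul_iff.1 h1).mono (Eventually.of_forall fun n => ?_)))
  show |s.1 n| ≤ |s.1 n + t.1 n|
  rw [abs_of_nonneg (hs n), abs_of_nonneg (add_nonneg (hs n) (ht n))]
  exact le_add_of_nonneg_right (ht n)

noncomputable instance : LinearOrder C.R := coneOrder C.P C.p_add C.p_tot C.p_anti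

instance : IsStrictOrderedRing C.R := coneOrder_ring C.P C.p_add C.p_tot C.p_anti C.p_mul

theorem le_iff {x y : C.R} : x ≤ y ↔ C.P (y - x) := Iff.rfl

theorem mk_le {s t : C.cau} (h : ∀ᶠ n in atTop, s.1 n ≤ t.1 n) : C.cl s ≤ C.cl t :=
  ⟨C.pp (t - s), by
    rw [← map_sub]
    exact C.mk_eq_of_ev (h.mono fun n hn => max_eq_left (sub_nonneg.2 hn)),
    fun n => le_max_right _ _⟩

/-- constant sequences -/
def cst : Q →+* C.cau where
  toFun q := ⟨fun _ => q, C.const q, cau_const q⟩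
  map_one' := rfl
  map_zero' := rfl
  map_mul' _ _ := rfl
  map_add' _ _ := rfl

/-- the embedding -/
noncomputable def io : Q →+* C.R := C.cl.comp C.cst

theorem io_mono : StrictMono C.io :=
  Monotone.strictMono_of_injective (fun _ _ h => C.mk_le (Eventually.of_forall fun _ => h))
    C.io.injective

theorem exists_le_io (x : C.R) : ∃ q, x ≤ C.io q := by
  obtain ⟨s, rfl⟩ := C.mk_surj x
  obtain ⟨q, -, h⟩ := s.2.2.bd
  exact ⟨q, C.mk_le (h.mono fun n hn => (le_abs_self _).trans hn)⟩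

theorem exists_io_lt {x : C.R} (hx : 0 < x) : ∃ q, 0 < q ∧ C.io q < x := by
  obtain ⟨q, hq⟩ := C.exists_le_io x⁻¹
  have h1 : x⁻¹ < C.io (q + 1) := hq.trans_lt (C.io_mono (lt_add_one q))
  have h2 : 0 < C.io (q + 1) := (inv_pos.2 hx).trans h1
  refine ⟨(q + 1)⁻¹, inv_pos.2 (C.io_mono.lt_iff_lt.1 (by rwa [map_zero])), ?_⟩
  rw [map_inv₀]
  exact inv_lt_of_inv_lt₀ hx h1

theorem approx (s : C.cau) {ε : Q} (hε : 0 < ε) :
    ∀ᶠ n in atTop, |C.io (s.1 n) - C.cl s| ≤ C.io ε := by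
  obtain ⟨k, hk⟩ := s.2.2 ε hε
  refine eventually_atTop.2 ⟨k, fun n hn => abs_sub_le_iff.2 ⟨?_, ?_⟩⟩
  · have : C.cl (C.cst (s.1 n) - s) ≤ C.cl (C.cst ε) := C.mk_le (eventually_atTop.2
      ⟨k, fun m hm => (le_abs_self _).trans (hk n hn m hm)⟩)
    rwa [map_sub] at this
  · have : C.cl (s - C.cst (s.1 n)) ≤ C.cl (C.cst ε) := C.mk_le (eventually_atTop.2
      ⟨k, fun m hm => (le_abs_self _).trans (hk m hm n hn)⟩)
    rwa [map_sub] at this

theorem le_mk {x : C.R} {s : C.cau} (h : ∀ n, x ≤ C.io (s.1 n)) : x ≤ C.cl s := by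
  by_contra hc
  obtain ⟨ε, hε, h1⟩ := C.exists_io_lt (sub_pos.2 (not_le.1 hc))
  obtain ⟨n, hn⟩ := (C.approx s hε).exists
  have := h n
  have := (abs_sub_le_iff.1 hn).1
  linarith

theorem mk_le_of {x : C.R} {s t : S → Q} (hs : s ∈ C.cau) (ht : Nul t)
    (h : ∀ n, C.io (s n) ≤ x + C.io (t n)) : C.cl ⟨s, hs⟩ ≤ x := by
  by_contra hc
  obtain ⟨ε, hε, h1⟩ := C.exists_io_lt (half_pos (sub_pos.2 (not_le.1 hc)))
  obtain ⟨n, hn, hn'⟩ := ((C.approx ⟨s, hs⟩ hε).and (nul_iff.1 ht ε hε)).exists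
  have := h n
  have := (abs_sub_le_iff.1 hn).2
  have := C.io_mono.monotone ((le_abs_self _).trans hn')
  linarith

end SeqC

end Vale.Agent.P129BR
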