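import Vale.Agent.P129B.Ops

/-!
# Coded quotients
-/

set_option linter.all false

namespace Vale.Agent.P129B

universe v

/-- A definable system of representatives: `ρ a b` means that `a` represents `b`. -/
structure QRep (N : Type v) [ZM N] (α β : Type*) [Coded N α] where
  ρ : α → β → Prop
  uniq : ∀ a b c, ρ a b → ρ a c → b = c
  surj : ∀ b, ∃ a, Intl N a ∧ ρ a b
  ker : DefF N (fun p : α × α => ∃ b, ρ p.1 b ∧ ρ p.2 b)

namespace QRep

variable {N : Type v} [ZM N] {α β : Type*} [Coded N α] [Bdd N α] (q : QRep N α β)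

/-- the internal representatives -/
def fib (b : β) : Set α := {a | Intl N a ∧ q.ρ a b}

theorem fib_eq {a : α} {b : β} (h : q.ρ a b) :
    q.fib b = {a' | Intl N a' ∧ ∃ c, q.ρ a c ∧ q.ρ a' c} :=
  Set.ext fun a' => and_congr_right fun _ =>
    ⟨fun k => ⟨b, h, k⟩, fun ⟨c, k, k'⟩ => q.uniq a c b k h ▸ k'⟩

theorem intl_fib (b : β) : Intl N (q.fib b) := by
  obtain ⟨a, ha, h⟩ := q.surj b
  rw [q.fib_eq h]
  exact intl_setOf (q.ker.comp2 (F := fun x y => ∃ c, q.ρ x c ∧ q.ρ y c) (DefF.const a) DefF.id)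

/-- The coding of the quotient: the code of `b` is the set of the representatives of `b`. -/
@[reducible] noncomputable def coded : Coded N β :=
  Coded.pull (α := Set α) q.fib
    (fun b c _ _ h => by
      obtain ⟨a, ha, h1⟩ := q.surj b
      have : a ∈ q.fib c := h ▸ (⟨ha, h1⟩ : a ∈ q.fib b)
      exact q.uniq a b c h1 this.2)
    (by
      have k : ∀ {γ : Type _} [Coded N γ] {f g : γ → α}, DefF N f → DefF N g →
          DefF N (fun x => ∃ c, q.ρ (f x) c ∧ q.ρ (g x) c) := fun hf hg =>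
        q.ker.comp2 (F := fun x y => ∃ c, q.ρ x c ∧ q.ρ y c) hf hg
      have : DefF N (fun s : Set α => ∃ a, Intl N a ∧ (∃ c, q.ρ a c ∧ q.ρ a c) ∧
          ∀ a', Intl N a' → (a' ∈ s ↔ ∃ c, q.ρ a c ∧ q.ρ a' c)) :=
        DefF.ex (DefF.and (k DefF.id.snd DefF.id.snd) (DefF.all
          (DefF.iff (by fun_prop) (k DefF.id.fst.snd DefF.id.snd))))
      refine this.congrP fun s hs => ⟨?_, ?_⟩
      · rintro ⟨a, -, ⟨b, h, -⟩, h1⟩
        refine ⟨b, (q.fib_eq h).trans (Set.ext fun a' => ⟨fun k => (h1 a' k.1).2 k.2, fun k => ?_⟩)⟩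
        exact ⟨hs.of_mem k, (h1 a' (hs.of_mem k)).1 k⟩
      · rintro ⟨b, rfl⟩
        obtain ⟨a, ha, h⟩ := q.surj b
        refine ⟨a, ha, ⟨b, h, h⟩, fun a' ha' => ?_⟩
        rw [q.fib_eq h]
        exact ⟨fun k => k.2, fun k => ⟨ha', k⟩⟩)

theorem tot : @Tot N _ β q.coded := by
  letI := q.coded
  have h1 : ∀ b : β, Intl N b := fun b => ⟨q.intl_fib b⟩
  refine @Tot.mk N _ β _ ⟨?_⟩ h1
  have h2 : Intl N {s : Set α | Intl N s ∧ Dom N β (code N s)} := intl_setOf (by fun_prop)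
  refine ⟨code N _, fun x => (mem_code_set h2).trans ?_⟩
  constructor
  · rintro ⟨s, ⟨-, f, hf, h⟩, rfl⟩; exact ⟨f, hf, h⟩
  · rintro ⟨f, hf, rfl⟩; exact ⟨q.fib f, ⟨q.intl_fib f, f, hf, rfl⟩, rfl⟩

theorem defRep : letI := q.coded; DefF N (fun p : α × β => q.ρ p.1 p.2) := by
  letI := q.coded
  have h1 : DefF N q.fib := ⟨fun b _ => q.intl_fib b, (DefF.id (N := N) (α := β)).2⟩
  have h2 : DefF N (fun p : α × β => p.1 ∈ q.fib p.2) := by fun_prop
  exact h2.congrP fun p _ => ⟨fun k => k.2, fun k => ⟨inferInstance, k⟩⟩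

end QRep

variable {N : Type v} [ZM N] {α β γ : Type*} [Coded N α] [Coded N β] [Coded N γ]

/-- A function on a quotient is definable if it is definable on representatives. -/
theorem defF_lift {ρ : α → β → Prop} (hρ : DefF N (fun p : α × β => ρ p.1 p.2))
    (surj : ∀ b, ∃ a, Intl N a ∧ ρ a b) {F : β → γ} {G : α → γ → Prop}
    (hG : DefF N (fun p : α × γ => G p.1 p.2)) (hI : ∀ b, Intl N (F b))
    (h : ∀ a b c, Intl N a → Intl N c → ρ a b → (G a c ↔ F b = c)) : DefF N F := by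
  refine defF_of_rel (R := fun b c => ∃ a, Intl N a ∧ ρ a b ∧ G a c) (fun b _ => hI b)
    (by fun_prop) fun b c _ hc => ⟨?_, fun e => ?_⟩
  · rintro ⟨a, ha, h1, h2⟩
    exact (h a b c ha hc h1).1 h2
  · obtain ⟨a, ha, h1⟩ := surj b
    exact ⟨a, ha, h1, (h a b c ha hc h1).2 e⟩

/-- The same for two arguments. -/
theorem defF_lift2 {ρ : α → β → Prop} (hρ : DefF N (fun p : α × β => ρ p.1 p.2))
    (surj : ∀ b, ∃ a, Intl N a ∧ ρ a b) {F : β → β → γ} {G : α × α → γ → Prop}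
    (hG : DefF N (fun p : (α × α) × γ => G p.1 p.2)) (hI : ∀ b b', Intl N (F b b'))
    (h : ∀ a a' b b' c, Intl N a → Intl N a' → Intl N c → ρ a b → ρ a' b' →
      (G (a, a') c ↔ F b b' = c)) : DefF N (fun p : β × β => F p.1 p.2) := by
  refine defF_lift (ρ := fun (a : α × α) (b : β × β) => ρ a.1 b.1 ∧ ρ a.2 b.2) (by fun_prop)
    (fun b => ?_) hG (fun b => hI b.1 b.2) fun a b c ha hc k =>
      h a.1 a.2 b.1 b.2 c inferInstance inferInstance hc k.1 k.2
  obtain ⟨a, ha, h1⟩ := surj b.1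
  obtain ⟨a', ha', h2⟩ := surj b.2
  exact ⟨(a, a'), inferInstance, h1, h2⟩

/-- A relation on a quotient is definable if it is definable on representatives. -/
theorem defP_lift2 {ρ : α → β → Prop} (hρ : DefF N (fun p : α × β => ρ p.1 p.2))
    (surj : ∀ b, ∃ a, Intl N a ∧ ρ a b) {F : β → β → Prop} {G : α × α → Prop}
    (hG : DefF N G) (h : ∀ a a' b b', Intl N a → Intl N a' → ρ a b → ρ a' b' →
      (G (a, a') ↔ F b b')) : DefF N (fun p : β × β => F p.1 p.2) :=
  defF_lift2 hρ surj (G := fun a c => G a = c) (by fun_prop) (fun _ _ => inferInstance)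
    fun a a' b b' c ha ha' _ k k' => by rw [propext (h a a' b b' ha ha' k k')]

end Vale.Agent.P129B
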