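import Vale.Agent.P129BR.Alg
import Vale.Agent.P129BR.Quot
import Vale.Agent.P129B.Choice

/-!
# The rational numbers of a model
-/

set_option linter.all false

namespace Vale.Agent.P129B

open Vale.Agent.P129BR

universe v

variable {N : Type v} [ZM N] {α : Type*} [Coded N α]

variable (N) in
/-- the rational numbers of the model -/
def QQ : Type v := QF (NN N)

namespace QQ

noncomputable instance : Field (QQ N) := inferInstanceAs (Field (QF (NN N)))
noncomputable instance : LinearOrder (QQ N) := inferInstanceAs (LinearOrder (QF (NN N)))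
instance : IsStrictOrderedRing (QQ N) := inferInstanceAs (IsStrictOrderedRing (QF (NN N)))

/-- the embedding of the natural numbers -/
noncomputable def ofN : NN N →+* QQ N := qof

theorem ofN_mono : StrictMono (ofN : NN N → QQ N) := qof_mono

theorem ofN_nonneg (n : NN N) : 0 ≤ ofN n := qof_nonneg n

theorem ofN_add_one_pos (n : NN N) : 0 < ofN n + 1 := add_pos_of_nonneg_of_pos (ofN_nonneg n) one_pos

/-- the rational number given by a triple -/
noncomputable def val (p : NN N × NN N × NN N) : QQ N := (ofN p.1 - ofN p.2.1) / (ofN p.2.2 + 1)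

theorem val_surj (x : QQ N) : ∃ p, val p = x := by
  have key : ∀ a b : NN N, ∃ c d : NN N, ofN a / ofN b = ofN c / (ofN d + 1) := by
    intro a b
    rcases NN.zero_or_add_one b with rfl | ⟨d, rfl⟩
    · exact ⟨0, 0, by simp⟩
    · exact ⟨a, d, by rw [map_add, map_one]⟩
  obtain ⟨a, b, h⟩ := q_or (S := NN N) x
  obtain ⟨c, d, h1⟩ := key a b
  rcases h with h | h
  · have h2 : x = ofN a / ofN b := h
    exact ⟨(c, 0, d), by rw [h2, h1, val, map_zero, sub_zero]⟩
  · have h2 : -x = ofN a / ofN b := h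
    exact ⟨(0, c, d), by rw [val, map_zero, zero_sub, neg_div, ← h1, ← h2, neg_neg]⟩

/-- sum of triples -/
noncomputable def tadd (p q : NN N × NN N × NN N) : NN N × NN N × NN N :=
  (p.1 * (q.2.2 + 1) + q.1 * (p.2.2 + 1), p.2.1 * (q.2.2 + 1) + q.2.1 * (p.2.2 + 1),
    p.2.2 * q.2.2 + p.2.2 + q.2.2)

/-- product of triples -/
noncomputable def tmul (p q : NN N × NN N × NN N) : NN N × NN N × NN N :=
  (p.1 * q.1 + p.2.1 * q.2.1, p.1 * q.2.1 + p.2.1 * q.1, p.2.2 * q.2.2 + p.2.2 + q.2.2)

theorem val_tadd (p q : NN N × NN N × NN N) : val (tadd p q) = val p + val q := by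
  have e : ofN (p.2.2 * q.2.2 + p.2.2 + q.2.2) + 1 = (ofN p.2.2 + 1) * (ofN q.2.2 + 1) := by
    simp only [map_add, map_mul]; ring
  have := (ofN_add_one_pos p.2.2).ne'
  have := (ofN_add_one_pos q.2.2).ne'
  simp only [val, tadd, e]
  simp only [map_add, map_mul, map_one]
  field_simp
  ring

theorem val_tmul (p q : NN N × NN N × NN N) : val (tmul p q) = val p * val q := by
  have e : ofN (p.2.2 * q.2.2 + p.2.2 + q.2.2) + 1 = (ofN p.2.2 + 1) * (ofN q.2.2 + 1) := by
    simp only [map_add, map_mul]; ring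
  have := (ofN_add_one_pos p.2.2).ne'
  have := (ofN_add_one_pos q.2.2).ne'
  simp only [val, tmul, e]
  simp only [map_add, map_mul, map_one]
  field_simp
  ring

theorem val_lt (p q : NN N × NN N × NN N) : val p < val q ↔
    p.1 * (q.2.2 + 1) + q.2.1 * (p.2.2 + 1) < q.1 * (p.2.2 + 1) + p.2.1 * (q.2.2 + 1) := by
  rw [val, val, div_lt_div_iff₀ (ofN_add_one_pos _) (ofN_add_one_pos _), ← ofN_mono.lt_iff_lt]
  simp only [map_add, map_mul, map_one]
  constructor <;> intro h <;> linarith

theorem defF_val_lt {f g : α → NN N × NN N × NN N} (hf : DefF N f) (hg : DefF N g) :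
    DefF N (fun a => val (f a) < val (g a)) := by
  simp only [val_lt]
  fun_prop

variable (N) in
/-- triples represent rational numbers -/
noncomputable def rep : QRep N (NN N × NN N × NN N) (QQ N) where
  ρ p x := val p = x
  uniq _ _ _ h k := h.symm.trans k
  surj x := (val_surj x).imp fun _ h => ⟨inferInstance, h⟩
  ker := ((defF_val_lt DefF.id.fst DefF.id.snd).not.and
    (defF_val_lt DefF.id.snd DefF.id.fst).not).congrP fun p _ =>
      ⟨fun h => ⟨_, rfl, le_antisymm (not_lt.1 h.1) (not_lt.1 h.2)⟩,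
        fun ⟨_, h, k⟩ => by rw [h, k]; exact ⟨lt_irrefl _, lt_irrefl _⟩⟩

noncomputable instance : Coded N (QQ N) := (rep N).coded
instance : Tot N (QQ N) := (rep N).tot

theorem defRep : DefF N (fun p : (NN N × NN N × NN N) × QQ N => val p.1 = p.2) := (rep N).defRep

theorem defF_val : DefF N (val : NN N × NN N × NN N → QQ N) :=
  defF_of_graph (fun _ _ => inferInstance) defRep

@[fun_prop] theorem _root_.Vale.Agent.P129B.DefF.qval {f : α → NN N × NN N × NN N}
    (hf : DefF N f) : DefF N (fun a => val (f a)) := defF_val.comp hf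

instance : DefAdd N (QQ N) := ⟨defF_lift2 (ρ := fun p x => val p = x) defRep (rep N).surj
  (G := fun p c => val (tadd p.1 p.2) = c) (by unfold tadd; fun_prop) (fun _ _ => inferInstance)
  fun a a' b b' c _ _ _ h k => by rw [val_tadd, h, k]⟩

instance : DefMul N (QQ N) := ⟨defF_lift2 (ρ := fun p x => val p = x) defRep (rep N).surj
  (G := fun p c => val (tmul p.1 p.2) = c) (by unfold tmul; fun_prop) (fun _ _ => inferInstance)
  fun a a' b b' c _ _ _ h k => by rw [val_tmul, h, k]⟩

instance : DefLT N (QQ N) := ⟨defP_lift2 (ρ := fun p x => val p = x) defRep (rep N).surj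
  (G := fun p => val p.1 < val p.2) (defF_val_lt DefF.id.fst DefF.id.snd)
  fun a a' b b' _ _ h k => by rw [h, k]⟩

instance : DefLE N (QQ N) := defLE_of_lt
instance : DefNeg N (QQ N) := defNeg_of_add
instance : DefSub N (QQ N) := defSub_of_neg
instance : DefInv N (QQ N) := defInv_of_mul
instance : DefDiv N (QQ N) := defDiv_of_inv

@[fun_prop] theorem _root_.Vale.Agent.P129B.DefF.ofN {f : α → NN N} (hf : DefF N f) :
    DefF N (fun a => ofN (f a)) := by
  have : DefF N (fun a => val (f a, 0, 0)) := by fun_prop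
  exact this.congr fun a _ => by simp [val]

/-- The rational numbers are archimedean over the natural numbers of the model. -/
theorem exists_le_ofN (x : QQ N) : ∃ n, x ≤ ofN n := by
  obtain ⟨p, rfl⟩ := val_surj x
  refine ⟨p.1, (div_le_iff₀ (ofN_add_one_pos _)).2 ?_⟩
  nlinarith [ofN_nonneg p.1, ofN_nonneg p.2.1, ofN_nonneg p.2.2]

theorem exists_inv_le {ε : QQ N} (hε : 0 < ε) :
    ∃ k : NN N, ∀ n, k ≤ n → (ofN n + 1)⁻¹ ≤ ε := by
  obtain ⟨k, hk⟩ := exists_le_ofN ε⁻¹
  refine ⟨k, fun n hn => inv_le_of_inv_le₀ hε ?_⟩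
  have := ofN_mono.monotone hn
  linarith

end QQ

end Vale.Agent.P129B
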