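import Vale.Agent.P129BR.Cau
import Vale.Agent.P129BR.QQ

/-!
# The real numbers of a model
-/

set_option linter.all false

namespace Vale.Agent.P129B

open Vale.Agent.P129BR QQ

universe v

variable {N : Type v} [ZM N] {α : Type*} [Coded N α]

instance : Nonempty (NN N) := ⟨0⟩

variable (N) in
/-- the internal sequences of rational numbers -/
noncomputable def seqC : SeqC (NN N) (QQ N) where
  A :=
    { carrier := {s | DefF N s}
      mul_mem' := fun h k => DefF.mul h k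
      one_mem' := DefF.const 1
      add_mem' := fun h k => DefF.add h k
      zero_mem' := DefF.const 0
      neg_mem' := fun h => DefF.neg h }
  const q := DefF.const q
  inv _ h := DefF.inv h
  pos _ h := DefF.max h (DefF.const 0)

variable (N) in
/-- the real numbers of the model -/
def RR : Type v := (seqC N).R

namespace RR

noncomputable instance : Field (RR N) := inferInstanceAs (Field (seqC N).R)
noncomputable instance : LinearOrder (RR N) := inferInstanceAs (LinearOrder (seqC N).R)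
instance : IsStrictOrderedRing (RR N) := inferInstanceAs (IsStrictOrderedRing (seqC N).R)

/-- the class of an internal Cauchy sequence -/
noncomputable def cl : (seqC N).cau →+* RR N := (seqC N).cl

/-- the embedding of the rational numbers -/
noncomputable def ofQ : QQ N →+* RR N := (seqC N).io

theorem ofQ_mono : StrictMono (ofQ : QQ N → RR N) := (seqC N).io_mono

/-- `s` represents `x` -/
def Rp (s : NN N → QQ N) (x : RR N) : Prop := ∃ h : s ∈ (seqC N).cau, cl ⟨s, h⟩ = x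

theorem defF_cau {f : α → NN N → QQ N} (hf : DefF N f) : DefF N (fun a => Cau (f a)) := by
  have := hf.uncurry
  unfold Cau
  fun_prop

theorem defF_nul {f : α → NN N → QQ N} (hf : DefF N (fun p : α × NN N => f p.1 p.2)) :
    DefF N (fun a => Nul (f a)) := by
  unfold Nul
  fun_prop

variable (N) in
/-- Cauchy sequences represent real numbers -/
noncomputable def rep : QRep N (NN N → QQ N) (RR N) where
  ρ := Rp
  uniq _ _ _ h k := by
    obtain ⟨_, rfl⟩ := h
    obtain ⟨_, rfl⟩ := k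
    rfl
  surj x := by
    obtain ⟨s, h⟩ := (seqC N).mk_surj x
    exact ⟨s.1, DefF.toIntl s.2.1, s.2, h⟩
  ker := by
    have : DefF N (fun p : (NN N → QQ N) × (NN N → QQ N) =>
        Cau p.1 ∧ Cau p.2 ∧ Nul (fun n => p.1 n - p.2 n)) :=
      (defF_cau DefF.id.fst).and ((defF_cau DefF.id.snd).and (defF_nul
        (DefF.sub (DefF.id.fst.fst.ap DefF.id.snd) (DefF.id.fst.snd.ap DefF.id.snd))))
    refine this.congrP fun p _ => ⟨fun h => ?_, ?_⟩
    · have h1 : p.1 ∈ (seqC N).cau := ⟨DefF.ofIntl p.1, h.1⟩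
      have h2 : p.2 ∈ (seqC N).cau := ⟨DefF.ofIntl p.2, h.2.1⟩
      exact ⟨cl ⟨p.2, h2⟩, ⟨h1, (seqC N).mk_eq.2 h.2.2⟩, h2, rfl⟩
    · rintro ⟨_, ⟨h1, rfl⟩, h2, h3⟩
      exact ⟨h1.2, h2.2, (seqC N).mk_eq.1 h3.symm⟩

noncomputable instance : Coded N (RR N) := (rep N).coded
instance : Tot N (RR N) := (rep N).tot

theorem defRep : DefF N (fun p : (NN N → QQ N) × RR N => Rp p.1 p.2) := (rep N).defRep

@[fun_prop] theorem defF_rp {f : α → NN N → QQ N} {g : α → RR N}
    (hf : DefF N (fun p : α × NN N => f p.1 p.2)) (hg : DefF N g) :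
    DefF N (fun a => Rp (f a) (g a)) := defRep.comp2 (DefF.lam f hf) hg

theorem rp_iff {s : NN N → QQ N} {x y : RR N} (h : Rp s x) : Rp s y ↔ x = y :=
  ⟨(rep N).uniq s x y h, fun e => e ▸ h⟩

instance : DefAdd N (RR N) := ⟨defF_lift2 (ρ := Rp) defRep (rep N).surj
  (G := fun p c => Rp (fun n => p.1 n + p.2 n) c)
  (defF_rp (DefF.add (DefF.id.fst.fst.fst.ap DefF.id.snd) (DefF.id.fst.fst.snd.ap DefF.id.snd))
    DefF.id.snd) (fun _ _ => inferInstance)
  fun a a' b b' c _ _ _ h k => by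
    obtain ⟨h, rfl⟩ := h
    obtain ⟨k, rfl⟩ := k
    exact rp_iff ⟨add_mem h k, map_add cl ⟨a, h⟩ ⟨a', k⟩⟩⟩

instance : DefMul N (RR N) := ⟨defF_lift2 (ρ := Rp) defRep (rep N).surj
  (G := fun p c => Rp (fun n => p.1 n * p.2 n) c)
  (defF_rp (DefF.mul (DefF.id.fst.fst.fst.ap DefF.id.snd) (DefF.id.fst.fst.snd.ap DefF.id.snd))
    DefF.id.snd) (fun _ _ => inferInstance)
  fun a a' b b' c _ _ _ h k => by
    obtain ⟨h, rfl⟩ := h
    obtain ⟨k, rfl⟩ := k
    exact rp_iff ⟨mul_mem h k, map_mul cl ⟨a, h⟩ ⟨a', k⟩⟩⟩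

instance : DefNeg N (RR N) := defNeg_of_add
instance : DefSub N (RR N) := defSub_of_neg
instance : DefInv N (RR N) := defInv_of_mul
instance : DefDiv N (RR N) := defDiv_of_inv

instance : DefLE N (RR N) := ⟨by
  have : DefF N (fun p : RR N × RR N => ∃ s : NN N → QQ N, Intl N s ∧ Rp s (p.2 - p.1) ∧
      ∀ n, 0 ≤ s n) :=
    DefF.ex (DefF.and (defRep.comp2 DefF.id.snd (by fun_prop)) (by fun_prop))
  refine this.congrP fun p _ => ⟨?_, ?_⟩
  · rintro ⟨s, -, ⟨h1, h2⟩, h3⟩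
    exact ⟨⟨s, h1⟩, h2, h3⟩
  · rintro ⟨s, h2, h3⟩
    exact ⟨s.1, DefF.toIntl s.2.1, ⟨s.2, h2⟩, h3⟩⟩

instance : DefLT N (RR N) := ⟨by
  have : DefF N (fun p : RR N × RR N => ¬ p.2 ≤ p.1) := by fun_prop
  exact this.congrP fun p _ => not_le⟩

@[fun_prop] theorem _root_.Vale.Agent.P129B.DefF.ofQ {f : α → QQ N} (hf : DefF N f) :
    DefF N (fun a => ofQ (f a)) :=
  DefF.comp (f := fun q : QQ N => RR.ofQ q) (defF_of_rel (R := fun (q : QQ N) (x : RR N) =>
    Rp (fun _ => q) x) (fun _ _ => inferInstance) (defF_rp (by fun_prop) DefF.id.snd)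
    fun q x _ _ => rp_iff ⟨((seqC N).cst q).2, rfl⟩) hf

theorem exists_le_ofQ (x : RR N) : ∃ q, x ≤ ofQ q := (seqC N).exists_le_io x

theorem exists_lt_ofN (x : RR N) : ∃ n : NN N, x < ofQ (ofN n) := by
  obtain ⟨q, hq⟩ := exists_le_ofQ x
  obtain ⟨n, hn⟩ := exists_le_ofN q
  exact ⟨n + 1, hq.trans_lt (ofQ_mono (hn.trans_lt (ofN_mono (NN.lt_add_one n))))⟩

/-- **Completeness**: nonempty bounded internal sets have a least upper bound. -/
theorem lub (T : Set (RR N)) (hT : Intl N T) (hne : T.Nonempty) (hb : BddAbove T) :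
    ∃ u, IsLUB T u := by
  obtain ⟨x₀, hx₀⟩ := hne
  obtain ⟨b, hb⟩ := hb
  obtain ⟨n₀, hn₀⟩ := exists_lt_ofN (-x₀)
  let P : NN N → NN N → Prop := fun n k => ∀ x ∈ T, x ≤ ofQ (ofN k / (ofN n + 1) - ofN n₀)
  have hP : DefF N (fun p : NN N × NN N => P p.1 p.2) := by unfold P; fun_prop
  obtain ⟨k, hk, hk'⟩ := exists_intl_choiceT (N := N)
    (R := fun n k : NN N => P n k ∧ ∀ m, m < k → ¬ P n m) (by fun_prop) fun n => by
      refine NN.exists_min (by fun_prop) ?_
      obtain ⟨q, hq⟩ := exists_le_ofQ b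
      obtain ⟨k, hk⟩ := exists_le_ofN ((q + ofN n₀) * (ofN n + 1))
      refine ⟨k, fun x hx => (hb hx).trans (hq.trans (ofQ_mono.monotone ?_))⟩
      rw [le_sub_iff_add_le, le_div_iff₀ (ofN_add_one_pos n)]
      exact hk
  let s : NN N → QQ N := fun n => ofN (k n) / (ofN n + 1) - ofN n₀
  have h1 : ∀ n, ∀ x ∈ T, x ≤ ofQ (s n) := fun n => (hk' n).1
  have h2 : ∀ n, ∃ x ∈ T, ofQ (s n) < x + ofQ (ofN n + 1)⁻¹ := by
    intro n
    rcases NN.zero_or_add_one (k n) with h | ⟨j, h⟩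
    · have := h1 n x₀ hx₀
      simp only [s, h, map_zero, zero_div, zero_sub, map_neg] at this
      linarith
    · have h3 := (hk' n).2 j (h ▸ NN.lt_add_one j)
      simp only [P, not_forall, not_le] at h3
      obtain ⟨x, hx, h3⟩ := h3
      refine ⟨x, hx, ?_⟩
      have e : s n = ofN j / (ofN n + 1) - ofN n₀ + (ofN n + 1)⁻¹ := by
        simp only [s, h, map_add, map_one]
        ring
      rw [e, map_add]
      linarith
  have h3 : ∀ m n, s m - s n ≤ (ofN m + 1)⁻¹ := by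
    intro m n
    obtain ⟨x, hx, h4⟩ := h2 m
    have h5 := h1 n x hx
    rw [← ofQ_mono.le_iff_le, map_sub]
    linarith
  have hs : s ∈ (seqC N).cau := ⟨by show DefF N s; unfold s; fun_prop, fun ε hε => by
    obtain ⟨j, hj⟩ := exists_inv_le hε
    exact ⟨j, fun m hm n hn =>
      abs_sub_le_iff.2 ⟨(h3 m n).trans (hj m hm), (h3 n m).trans (hj n hn)⟩⟩⟩
  refine ⟨cl ⟨s, hs⟩, fun x hx => (seqC N).le_mk fun n => h1 n x hx, fun c hc => ?_⟩
  refine (seqC N).mk_le_of (t := fun n => (ofN n + 1)⁻¹) hs (fun ε hε => ?_) fun n => ?_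
  · obtain ⟨j, hj⟩ := exists_inv_le hε
    exact ⟨j, fun n hn => by
      rw [abs_of_pos (inv_pos.2 (ofN_add_one_pos n))]; exact hj n hn⟩
  · obtain ⟨x, hx, h4⟩ := h2 n
    have h5 : ofQ (s n) ≤ c + ofQ (ofN n + 1)⁻¹ := by linarith [hc hx]
    exact h5

/-- The rational numbers are dense. -/
theorem exists_ofQ_btwn {x y : RR N} (h : x < y) : ∃ q, x < ofQ q ∧ ofQ q < y := by
  have h0 : (0 : RR N) < (y - x) / 4 := by linarith
  obtain ⟨ε, hε, h1⟩ := (seqC N).exists_io_lt h0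
  obtain ⟨s, hs⟩ := (seqC N).mk_surj ((x + y) / 2 : RR N)
  obtain ⟨n, hn⟩ := ((seqC N).approx s hε).exists
  have h2 : ofQ ε < (y - x) / 4 := h1
  have h3 : |ofQ (s.1 n) - (x + y) / 2| ≤ ofQ ε := hs ▸ hn
  obtain ⟨h4, h5⟩ := abs_sub_le_iff.1 h3
  exact ⟨s.1 n, by linarith, by linarith⟩

end RR

end Vale.Agent.P129B
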